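import Vale.Agent.P299.H760.Iface
import Vale.Agent.P272.K.MP.Local
import Vale.Agent.P299.H588.LogCore

/-! P299, package D2-LOC2: the logarithmic gradient estimate. -/

open Filter Topology Metric Set
open scoped ContDiff
open Vale.Agent.P299.H760

set_option maxSynthPendingDepth 3
set_option linter.unusedVariables false
set_option linter.unusedSectionVars false

namespace Vale.Agent.P299.H588

section const

variable {E : Type*} [NormedAddCommGroup E] [NormedSpace ℝ E] [FiniteDimensional ℝ E]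

lemma opNorm_sq_le {F : Type*} [NormedAddCommGroup F] [NormedSpace ℝ F] {d : ℕ}
    (b : Module.Basis (Fin d) ℝ E) (A : E →L[ℝ] F) :
    ‖A‖ ^ 2 ≤ (∑ k, ‖LinearMap.toContinuousLinearMap (b.coord k)‖ ^ 2) * ∑ k, ‖A (b k)‖ ^ 2 := by
  set T : ℝ := ∑ k, ‖LinearMap.toContinuousLinearMap (b.coord k)‖ * ‖A (b k)‖ with hT
  have hT0 : 0 ≤ T := Finset.sum_nonneg fun k _ => by positivity
  have h1 : ‖A‖ ≤ T := by
    refine A.opNorm_le_bound hT0 fun x => ?_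
    have hx : x = ∑ k, b.coord k x • b k := (b.sum_repr x).symm
    calc ‖A x‖ = ‖∑ k, b.coord k x • A (b k)‖ := by
          conv_lhs => rw [hx]
          rw [map_sum]
          simp only [map_smul]
      _ ≤ ∑ k, ‖b.coord k x • A (b k)‖ := norm_sum_le _ _
      _ ≤ ∑ k, (‖LinearMap.toContinuousLinearMap (b.coord k)‖ * ‖A (b k)‖) * ‖x‖ := by
          refine Finset.sum_le_sum fun k _ => ?_
          rw [norm_smul]
          have h := (LinearMap.toContinuousLinearMap (b.coord k)).le_opNorm x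
          rw [LinearMap.coe_toContinuousLinearMap'] at h
          calc ‖b.coord k x‖ * ‖A (b k)‖
              ≤ (‖LinearMap.toContinuousLinearMap (b.coord k)‖ * ‖x‖) * ‖A (b k)‖ := by gcongr
            _ = _ := by ring
      _ = T * ‖x‖ := by rw [hT, Finset.sum_mul]
  calc ‖A‖ ^ 2 ≤ T ^ 2 := by gcongr
    _ ≤ _ := Finset.sum_mul_sq_le_sq_mul_sq _ _ _

lemma exists_kappa {d : ℕ} (b : Module.Basis (Fin d) ℝ E) : ∃ κ : ℝ, 0 < κ ∧
    (∀ ξ : E →L[ℝ] ℝ, κ * ‖ξ‖ ^ 2 ≤ ∑ k, ξ (b k) * ξ (b k)) ∧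
    (∀ B : E →L[ℝ] E →L[ℝ] ℝ, κ * ‖B‖ ^ 2 ≤ ∑ k, ‖B (b k)‖ ^ 2) := by
  set S : ℝ := ∑ k, ‖LinearMap.toContinuousLinearMap (b.coord k)‖ ^ 2 with hS
  have hS0 : 0 ≤ S := Finset.sum_nonneg fun k _ => sq_nonneg _
  have key : ∀ (x y : ℝ), 0 ≤ y → x ≤ S * y → 1 / (S + 1) * x ≤ y := by
    intro x y hy h
    rw [div_mul_eq_mul_div, one_mul, div_le_iff₀ (by positivity)]
    nlinarith
  refine ⟨1 / (S + 1), by positivity, fun ξ => ?_, fun B => ?_⟩
  · refine key _ _ (Finset.sum_nonneg fun k _ => mul_self_nonneg _) ?_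
    have h := opNorm_sq_le b ξ
    have e : ∑ k, ξ (b k) * ξ (b k) = ∑ k, ‖ξ (b k)‖ ^ 2 :=
      Finset.sum_congr rfl fun k _ => by rw [Real.norm_eq_abs, sq_abs]; ring
    rw [e]
    exact h
  · exact key _ _ (Finset.sum_nonneg fun k _ => sq_nonneg _) (opNorm_sq_le b B)

end const

section loc

variable {E : Type} [NormedAddCommGroup E] [NormedSpace ℝ E] [FiniteDimensional ℝ E]

lemma EllOn.contOn {a : E → B2 E →L[ℝ] ℝ} {U : Set E} (h : EllOn a U) : ContinuousOn a U :=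
  fun z hz => (h.smooth z hz).continuousAt.continuousWithinAt

lemma EllOn.contOn_fderiv {a : E → B2 E →L[ℝ] ℝ} {U : Set E} (h : EllOn a U) :
    ContinuousOn (fderiv ℝ a) U := fun z hz =>
  (cd_fderiv (n := 1) (by exact_mod_cast contDiffAt_infty.1 (h.smooth z hz) 2)).continuousAt.continuousWithinAt

lemma cont_smulRight : Continuous fun ξ : E →L[ℝ] ℝ => ξ.smulRight ξ :=
  (ContinuousLinearMap.smulRightL ℝ E (E →L[ℝ] ℝ)).continuous.clm_apply continuous_id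

lemma ellip_scale (A : B2 E →L[ℝ] ℝ) (lam : ℝ)
    (hA : ∀ ξ : E →L[ℝ] ℝ, ‖ξ‖ = 1 → lam ≤ A (ξ.smulRight ξ)) (ξ : E →L[ℝ] ℝ) :
    lam * ‖ξ‖ ^ 2 ≤ A (ξ.smulRight ξ) := by
  by_cases hξ : ξ = 0
  · subst hξ
    have : (0 : E →L[ℝ] ℝ).smulRight (0 : E →L[ℝ] ℝ) = 0 := by ext x y; simp
    rw [this]; simp
  · have hn : ‖ξ‖ ≠ 0 := norm_ne_zero_iff.2 hξ
    have h1 : ‖‖ξ‖⁻¹ • ξ‖ = 1 := by
      rw [norm_smul, norm_inv, norm_norm, inv_mul_cancel₀ hn]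
    have h2 := hA _ h1
    have h3 : (‖ξ‖⁻¹ • ξ).smulRight (‖ξ‖⁻¹ • ξ) = (‖ξ‖⁻¹ ^ 2) • ξ.smulRight ξ := by
      ext x y
      simp only [ContinuousLinearMap.smulRight_apply, smul_apply, smul_eq_mul]
      ring
    rw [h3, map_smul, smul_eq_mul, inv_pow, ← div_eq_inv_mul,
      le_div_iff₀ (by positivity)] at h2
    exact h2

/-- ellipticity constant -/
lemma exists_ellip {a : E → B2 E →L[ℝ] ℝ} {U : Set E} (h : EllOn a U) {K : Set E}
    (hK : IsCompact K) (hKU : K ⊆ U) :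
    ∃ lam : ℝ, 0 < lam ∧ ∀ z ∈ K, ∀ ξ : E →L[ℝ] ℝ, lam * ‖ξ‖ ^ 2 ≤ a z (ξ.smulRight ξ) := by
  have hprop : ProperSpace (E →L[ℝ] ℝ) := FiniteDimensional.proper_real _
  by_cases hne : (K ×ˢ (sphere (0 : E →L[ℝ] ℝ) 1)).Nonempty
  · have hcont : ContinuousOn (fun p : E × (E →L[ℝ] ℝ) => a p.1 (p.2.smulRight p.2))
        (K ×ˢ (sphere (0 : E →L[ℝ] ℝ) 1)) := by
      have h1 : ContinuousOn (fun p : E × (E →L[ℝ] ℝ) => a p.1)
          (K ×ˢ (sphere (0 : E →L[ℝ] ℝ) 1)) :=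
        (EllOn.contOn h).comp continuousOn_fst fun p hp => hKU hp.1
      exact h1.clm_apply (cont_smulRight.comp continuous_snd).continuousOn
    obtain ⟨p, hp, hmin⟩ := (hK.prod (isCompact_sphere (0 : E →L[ℝ] ℝ) 1)).exists_isMinOn hne hcont
    have hmin' : ∀ q : E × (E →L[ℝ] ℝ), q ∈ K ×ˢ (sphere (0 : E →L[ℝ] ℝ) 1) →
        a p.1 (p.2.smulRight p.2) ≤ a q.1 (q.2.smulRight q.2) := fun q hq => hmin hq
    have hm2 : ∀ z ∈ K, ∀ ξ : E →L[ℝ] ℝ, ‖ξ‖ = 1 →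
        a p.1 (p.2.smulRight p.2) ≤ a z (ξ.smulRight ξ) := fun z hz ξ hξ =>
      hmin' (z, ξ) ⟨hz, mem_sphere_zero_iff_norm.2 hξ⟩
    refine ⟨a p.1 (p.2.smulRight p.2), ?_, fun z hz => ellip_scale (a z) _ (hm2 z hz)⟩
    refine h.pos _ (hKU hp.1) _ ?_
    intro h0
    have := mem_sphere_zero_iff_norm.1 hp.2
    rw [h0, norm_zero] at this
    exact zero_ne_one this
  · refine ⟨1, one_pos, fun z hz => ellip_scale (a z) _ fun ξ hξ => ?_⟩
    exact absurd ⟨(z, ξ), hz, mem_sphere_zero_iff_norm.2 hξ⟩ hne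

/-- the equation of the logarithm -/
lemma log_eq {a : E → B2 E →L[ℝ] ℝ} {w : E → ℝ} {z : E} {l : ℝ} (hw : ContDiffAt ℝ ∞ w z)
    (hpos : 0 < w z) (heq : Lop a w z = l * w z) :
    fderiv ℝ w z = w z • fderiv ℝ (fun y => Real.log (w y)) z ∧
    a z (fderiv ℝ (fderiv ℝ (fun y => Real.log (w y))) z)
      + a z ((fderiv ℝ (fun y => Real.log (w y)) z).smulRight
        (fderiv ℝ (fun y => Real.log (w y)) z)) = l := by
  set v : E → ℝ := fun y => Real.log (w y) with hv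
  have hw2 : ContDiffAt ℝ 2 w z := by exact_mod_cast contDiffAt_infty.1 hw 2
  have hev : ∀ᶠ y in 𝓝 z, ContDiffAt ℝ 2 w y ∧ 0 < w y :=
    (hw2.eventually (by simp)).and (hw.continuousAt.eventually (lt_mem_nhds hpos))
  have h1 : ∀ y, ContDiffAt ℝ 2 w y → 0 < w y → fderiv ℝ w y = w y • fderiv ℝ v y := by
    intro y hy hp
    have h2 : HasFDerivAt v ((w y)⁻¹ • fderiv ℝ w y) y :=
      (hasFDerivAt_of_cd (hy.of_le (by norm_num))).log hp.ne'
    rw [h2.fderiv, smul_smul, mul_inv_cancel₀ hp.ne', one_smul]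
  have hz := hev.self_of_nhds
  have h3 : fderiv ℝ w =ᶠ[𝓝 z] fun y => w y • fderiv ℝ v y := by
    filter_upwards [hev] with y hy using h1 y hy.1 hy.2
  have hv2 : ContDiffAt ℝ 2 v z := hz.1.log hz.2.ne'
  have dw : HasFDerivAt w (fderiv ℝ w z) z := hasFDerivAt_of_cd (hz.1.of_le (by norm_num))
  have ddv : HasFDerivAt (fderiv ℝ v) (fderiv ℝ (fderiv ℝ v) z) z :=
    hasFDerivAt_of_cd (cd_fderiv (n := 1) (by exact_mod_cast hv2))
  have h4 : fderiv ℝ (fderiv ℝ w) z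
      = w z • fderiv ℝ (fderiv ℝ v) z + (fderiv ℝ w z).smulRight (fderiv ℝ v z) := by
    rw [h3.fderiv_eq]
    exact (dw.smul ddv).fderiv
  refine ⟨h1 z hz.1 hz.2, ?_⟩
  unfold Lop at heq
  have h5 : (w z • fderiv ℝ v z).smulRight (fderiv ℝ v z)
      = w z • (fderiv ℝ v z).smulRight (fderiv ℝ v z) := by
    ext x y
    simp only [ContinuousLinearMap.smulRight_apply, smul_apply, smul_eq_mul]
    ring
  rw [h4, h1 z hz.1 hz.2, h5, map_add, map_smul, map_smul, smul_eq_mul, smul_eq_mul, ← mul_add,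
    mul_comm l] at heq
  exact mul_left_cancel₀ hpos.ne' heq

/-- the differentiated equation -/
lemma log_eq_deriv {a : E → B2 E →L[ℝ] ℝ} {v : E → ℝ} {z : E} {l : ℝ}
    (ha : ContDiffAt ℝ ∞ a z) (hv : ContDiffAt ℝ ∞ v z)
    (heq : ∀ᶠ y in 𝓝 z, a y (fderiv ℝ (fderiv ℝ v) y)
      + a y ((fderiv ℝ v y).smulRight (fderiv ℝ v y)) = l) (x : E) :
    a z (fderiv ℝ (fderiv ℝ (fderiv ℝ v)) z x) + fderiv ℝ a z x (fderiv ℝ (fderiv ℝ v) z)
      + a z ((fderiv ℝ v z).smulRight (fderiv ℝ (fderiv ℝ v) z x))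
      + a z ((fderiv ℝ (fderiv ℝ v) z x).smulRight (fderiv ℝ v z))
      + fderiv ℝ a z x ((fderiv ℝ v z).smulRight (fderiv ℝ v z)) = 0 := by
  have hv3 : ContDiffAt ℝ 3 v z := by exact_mod_cast contDiffAt_infty.1 hv 3
  have hv2 : ContDiffAt ℝ 2 (fderiv ℝ v) z := cd_fderiv (n := 2) (by exact_mod_cast hv3)
  have hv1 : ContDiffAt ℝ 1 (fderiv ℝ (fderiv ℝ v)) z :=
    cd_fderiv (n := 1) (by exact_mod_cast hv2)
  have da : HasFDerivAt a (fderiv ℝ a z) z :=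
    hasFDerivAt_of_cd (by exact_mod_cast contDiffAt_infty.1 ha 1)
  have dB := hasFDerivAt_of_cd hv1
  have dξ : HasFDerivAt (fderiv ℝ v) (fderiv ℝ (fderiv ℝ v) z) z :=
    hasFDerivAt_of_cd (hv2.of_le (by norm_num))
  have h1 := da.clm_apply dB
  have hs := (ContinuousLinearMap.smulRightL ℝ E (E →L[ℝ] ℝ)).hasFDerivAt_of_bilinear dξ dξ
  have h2 := da.clm_apply hs
  have h3 := h1.add h2
  have h4 := ((hasFDerivAt_const l z).congr_of_eventuallyEq heq).unique h3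
  have h5 := congrArg (fun M : E →L[ℝ] ℝ => M x) h4
  simp only [zero_apply, add_apply, ContinuousLinearMap.comp_apply,
    ContinuousLinearMap.flip_apply, ContinuousLinearMap.precompR_apply,
    ContinuousLinearMap.precompL_apply, ContinuousLinearMap.compL_apply,
    ContinuousLinearMap.smulRightL_apply_apply, map_add] at h5
  linarith

/-- the constant -/
noncomputable def Gc (l lam L L' κ E2 m₁ m₂ : ℝ) : ℝ :=
  1 + 2 * l / lam + 8 * (2 * (2 * E2 * L' + 4 * E2 * L * m₁ + E2 * L * (m₂ + 8 * m₁ ^ 2))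
      + (2 * E2 * L' + 4 * E2 * L * m₁ + E2 * L * (m₂ + 8 * m₁ ^ 2)) ^ 2 / (2 * (2 * lam * κ)))
      * L ^ 2 / ((2 * lam * κ) * lam ^ 2)

/-- the square of the gradient -/
noncomputable def QQ {d : ℕ} (b : Module.Basis (Fin d) ℝ E) (v : E → ℝ) (y : E) : ℝ :=
  ∑ k, fderiv ℝ v y (b k) * fderiv ℝ v y (b k)

lemma QQ_cd {d : ℕ} (b : Module.Basis (Fin d) ℝ E) {v : E → ℝ} {z : E}
    (hv : ContDiffAt ℝ 3 v z) : ContDiffAt ℝ 2 (QQ b v) z := by
  have h2 : ContDiffAt ℝ 2 (fderiv ℝ v) z := cd_fderiv (n := 2) (by exact_mod_cast hv)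
  unfold QQ
  refine ContDiffAt.sum fun k _ => ?_
  have h3 : ContDiffAt ℝ 2 (fun y => fderiv ℝ v y (b k)) z := h2.clm_apply contDiffAt_const
  exact h3.mul h3

lemma QQ_fderiv {d : ℕ} (b : Module.Basis (Fin d) ℝ E) {v : E → ℝ} {z : E}
    (hv : ContDiffAt ℝ 3 v z) :
    fderiv ℝ (QQ b v) z = ∑ k, (2 * fderiv ℝ v z (b k)) • fderiv ℝ (fderiv ℝ v) z (b k) := by
  have h2 : ContDiffAt ℝ 2 (fderiv ℝ v) z := cd_fderiv (n := 2) (by exact_mod_cast hv)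
  have h3 : ∀ k, ContDiffAt ℝ 2 (fun y => fderiv ℝ v y (b k)) z := fun k =>
    h2.clm_apply contDiffAt_const
  have h4 : ∀ k, HasFDerivAt (fun y => fderiv ℝ v y (b k)) (fderiv ℝ (fderiv ℝ v) z (b k)) z := by
    intro k
    have := hasFDerivAt_of_cd ((h3 k).of_le (by norm_num))
    rwa [fderiv_partial (hv.of_le (by norm_num))] at this
  have h5 : HasFDerivAt (QQ b v) (∑ k, (fderiv ℝ v z (b k) • fderiv ℝ (fderiv ℝ v) z (b k)
      + fderiv ℝ v z (b k) • fderiv ℝ (fderiv ℝ v) z (b k))) z :=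
    HasFDerivAt.fun_sum fun k _ => (h4 k).mul (h4 k)
  rw [h5.fderiv]
  refine Finset.sum_congr rfl fun k _ => ?_
  rw [two_mul, add_smul]

lemma QQ_fderiv2 {d : ℕ} (b : Module.Basis (Fin d) ℝ E) {v : E → ℝ} {z : E}
    (hv : ContDiffAt ℝ 3 v z) :
    fderiv ℝ (fderiv ℝ (QQ b v)) z
      = ∑ k, ((2 * fderiv ℝ v z (b k)) • fderiv ℝ (fderiv ℝ (fderiv ℝ v)) z (b k)
        + (2 : ℝ) • (fderiv ℝ (fderiv ℝ v) z (b k)).smulRight (fderiv ℝ (fderiv ℝ v) z (b k))) := by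
  have h2 : ContDiffAt ℝ 2 (fderiv ℝ v) z := cd_fderiv (n := 2) (by exact_mod_cast hv)
  have h3 : ∀ k, ContDiffAt ℝ 2 (fun y => fderiv ℝ v y (b k)) z := fun k =>
    h2.clm_apply contDiffAt_const
  unfold QQ
  rw [fderiv2_sum _ fun k _ => (h3 k).mul (h3 k)]
  refine Finset.sum_congr rfl fun k _ => ?_
  rw [fderiv2_mul (h3 k) (h3 k), fderiv_partial (hv.of_le (by norm_num)), fderiv2_partial hv,
    two_mul, add_smul, two_smul]
  abel

/-- **the estimate at the maximum point** -/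
lemma at_max {d : ℕ} (b : Module.Basis (Fin d) ℝ E) {a : E → B2 E →L[ℝ] ℝ} {z : E}
    {v η : E → ℝ} {l lam L L' κ m₁ m₂ : ℝ}
    (hlam : 0 < lam) (hL : 0 < L) (hL' : 0 ≤ L') (hl : 0 ≤ l) (hκ : 0 < κ) (hm₁ : 0 ≤ m₁)
    (hm₂ : 0 ≤ m₂)
    (ha : ContDiffAt ℝ ∞ a z) (hv : ContDiffAt ℝ ∞ v z) (hη : ContDiffAt ℝ ∞ η z)
    (heq : ∀ᶠ y in 𝓝 z, a y (fderiv ℝ (fderiv ℝ v) y)
      + a y ((fderiv ℝ v y).smulRight (fderiv ℝ v y)) = l)
    (hell : ∀ ξ : E →L[ℝ] ℝ, lam * ‖ξ‖ ^ 2 ≤ a z (ξ.smulRight ξ))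
    (haL : ‖a z‖ ≤ L) (haL' : ‖fderiv ℝ a z‖ ≤ L')
    (hκB : ∀ B : E →L[ℝ] E →L[ℝ] ℝ, κ * ‖B‖ ^ 2 ≤ ∑ k, ‖B (b k)‖ ^ 2)
    (hηpos : 0 < η z) (hη1 : η z ≤ 1) (hm1 : ‖fderiv ℝ η z‖ ≤ m₁)
    (hm2 : ‖fderiv ℝ (fderiv ℝ (fun y => η y * η y)) z‖ ≤ m₂)
    (hmax : IsLocalMax (fun y => (η y * η y) * QQ b v y) z) :
    η z * ‖fderiv ℝ v z‖ ≤ Gc l lam L L' κ (∑ k, ‖b k‖ ^ 2) m₁ m₂ := by
  have hv3 : ContDiffAt ℝ 3 v z := by exact_mod_cast contDiffAt_infty.1 hv 3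
  have hη2 : ContDiffAt ℝ 2 η z := by exact_mod_cast contDiffAt_infty.1 hη 2
  have hσ2 : ContDiffAt ℝ 2 (fun y => η y * η y) z := hη2.mul hη2
  have hQ2 := QQ_cd b hv3
  have hF2 : ContDiffAt ℝ 2 (fun y => (η y * η y) * QQ b v y) z := hσ2.mul hQ2
  have dη : HasFDerivAt η (fderiv ℝ η z) z := hasFDerivAt_of_cd (hη2.of_le (by norm_num))
  have dσ : fderiv ℝ (fun y => η y * η y) z = (2 * η z) • fderiv ℝ η z := by
    have h : HasFDerivAt (fun y => η y * η y) (η z • fderiv ℝ η z + η z • fderiv ℝ η z) z :=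
      dη.mul dη
    rw [h.fderiv, two_mul, add_smul]
  have hσd := hasFDerivAt_of_cd (hσ2.of_le (by norm_num))
  have hQd := hasFDerivAt_of_cd (hQ2.of_le (by norm_num))
  have M1 := hmax.fderiv_eq_zero
  have hd : HasFDerivAt (fun y => (η y * η y) * QQ b v y) ((η z * η z) • fderiv ℝ (QQ b v) z
      + QQ b v z • fderiv ℝ (fun y => η y * η y) z) z := hσd.mul hQd
  rw [hd.fderiv, dσ, QQ_fderiv b hv3] at M1
  have M2 := Vale.Agent.P272.K.MP.op_nonpos_of_max (a z)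
    (fun ξ => le_trans (by positivity) (hell ξ)) 0 hmax hF2
  rw [fderiv2_mul hσ2 hQ2, dσ, QQ_fderiv b hv3, QQ_fderiv2 b hv3] at M2
  simp only [map_add, map_smul, map_sum, smul_eq_mul, zero_apply, add_zero] at M2
  have c1 := core1 (e := fun k => b k) (A := a z) (A' := fderiv ℝ a z) (ξ := fderiv ℝ v z)
    (B := fderiv ℝ (fderiv ℝ v) z) (D3 := fderiv ℝ (fderiv ℝ (fderiv ℝ v)) z)
    (lam := lam) (L := L) (L' := L') (l := l) (κ := κ) (E2 := ∑ k, ‖b k‖ ^ 2) (m₁ := m₁) (m₂ := m₂)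
    (η := η z) (ζ := fderiv ℝ η z) (S2 := fderiv ℝ (fderiv ℝ (fun y => η y * η y)) z)
    hlam hL hL' hl hκ hm₁ hm₂ hell haL haL' le_rfl (hκB _) heq.self_of_nhds
    (fun x => log_eq_deriv ha hv heq x) hηpos hη1 hm1 hm2 (Q := QQ b v z) rfl rfl rfl
    (by rw [pow_two]; exact M1) (by
      rw [pow_two]
      refine le_trans (le_of_eq ?_) M2
      ring)
  exact core2 hlam hL hL' hl hκ hm₁ hm₂ (Finset.sum_nonneg fun k _ => sq_nonneg _)
    (norm_nonneg _) (norm_nonneg _) hηpos hη1 c1.1 c1.2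

end loc

/-- **D2-LOC2** -/
theorem log_statement : LogStatement := by
  intro E _ _ _ a U ha l hl x₀ R hR hsub
  have hprop : ProperSpace E := FiniteDimensional.proper_real E
  set K : Set E := closedBall x₀ R with hKdef
  have hK : IsCompact K := isCompact_closedBall _ _
  obtain ⟨lam, hlam, hell⟩ := exists_ellip ha hK hsub
  obtain ⟨L₀, hL₀⟩ := hK.exists_bound_of_continuousOn ((EllOn.contOn ha).mono hsub)
  have hcont1 : ContinuousOn (fun z => ‖fderiv ℝ a z‖) K :=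
    ContinuousOn.norm (E := E →L[ℝ] B2 E →L[ℝ] ℝ) ((EllOn.contOn_fderiv ha).mono hsub)
  obtain ⟨L₁, hL₁'⟩ := hK.exists_bound_of_continuousOn hcont1
  have hL₁ : ∀ z ∈ K, ‖fderiv ℝ a z‖ ≤ L₁ := fun z hz => by
    have := hL₁' z hz
    rw [Real.norm_eq_abs] at this
    exact (le_abs_self _).trans this
  set L : ℝ := |L₀| + 1 with hLdef
  have hL : 0 < L := by positivity
  set L' : ℝ := |L₁| with hL'def
  have hL' : 0 ≤ L' := abs_nonneg _
  set b := Module.finBasis ℝ E with hb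
  obtain ⟨κ, hκ, hκξ, hκB⟩ := exists_kappa b
  -- the cutoff
  let f : ContDiffBump x₀ := ⟨R / 2, 3 * R / 4, by linarith, by linarith⟩
  have hfc : ContDiff ℝ ∞ (fun y => f y) := f.contDiff
  have hfc2 : ContDiff ℝ 2 (fun y => f y) := by exact_mod_cast contDiff_infty.1 hfc 2
  have hσc : ContDiff ℝ 2 (fun y => f y * f y) := hfc2.mul hfc2
  obtain ⟨m₁', hm₁'⟩ := hK.exists_bound_of_continuousOn
    (hfc2.continuous_fderiv (by norm_num)).continuousOn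
  have hσ1 : ContDiff ℝ 1 (fderiv ℝ (fun y => f y * f y)) :=
    hσc.fderiv_right (m := 1) (by norm_num)
  obtain ⟨m₂', hm₂'⟩ := hK.exists_bound_of_continuousOn
    (hσ1.continuous_fderiv (by norm_num)).continuousOn
  set E2 : ℝ := ∑ k, ‖b k‖ ^ 2 with hE2
  have hE20 : 0 ≤ E2 := Finset.sum_nonneg fun k _ => sq_nonneg _
  set Γ : ℝ := Gc l lam L L' κ E2 |m₁'| |m₂'| with hΓ
  have hΓ0 : 0 ≤ Γ := by rw [hΓ]; unfold Gc; positivity
  refine ⟨(E2 / κ + 1) * Γ, by positivity, ?_⟩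
  intro w hw hpos heq z hz
  set v : E → ℝ := fun y => Real.log (w y) with hv
  have hvs : ∀ y ∈ ball x₀ R, ContDiffAt ℝ ∞ v y := fun y hy => (hw y hy).log (hpos y hy).ne'
  set F : E → ℝ := fun y => (f y * f y) * QQ b v y with hF
  have hRr : closedBall x₀ (3 * R / 4) ⊆ ball x₀ R := closedBall_subset_ball (by linarith)
  have hQc : ContinuousOn (QQ b v) (ball x₀ R) := fun y hy =>
    (QQ_cd b (by exact_mod_cast contDiffAt_infty.1 (hvs y hy) 3)).continuousAt.continuousWithinAt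
  have hFc : ContinuousOn F (closedBall x₀ (3 * R / 4)) :=
    (hσc.continuous.continuousOn).mul (hQc.mono hRr)
  have hne : (closedBall x₀ (3 * R / 4)).Nonempty := ⟨x₀, mem_closedBall_self (by linarith)⟩
  obtain ⟨z₀, hz₀, hmax⟩ := (isCompact_closedBall x₀ (3 * R / 4)).exists_isMaxOn hne hFc
  have hmax' : ∀ y ∈ closedBall x₀ (3 * R / 4), F y ≤ F z₀ := fun y hy => hmax hy
  have hzR : z ∈ ball x₀ R := ball_subset_ball (by linarith) hz
  have hz34 : z ∈ closedBall x₀ (3 * R / 4) :=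
    ball_subset_closedBall (ball_subset_ball (by linarith) hz)
  -- the value at `z`
  have hfz : f z = 1 := f.one_of_mem_closedBall (ball_subset_closedBall hz)
  have hFz : κ * ‖fderiv ℝ v z‖ ^ 2 ≤ F z := by
    rw [hF]
    simp only [hfz, one_mul]
    exact hκξ _
  -- bound of the maximum
  have hbound : F z₀ ≤ E2 * Γ ^ 2 := by
    by_cases h0 : F z₀ ≤ 0
    · exact h0.trans (by positivity)
    · push Not at h0
      have hfz₀ : f z₀ ≠ 0 := by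
        intro h
        rw [hF] at h0
        simp only [h, mul_zero, zero_mul, lt_self_iff_false] at h0
      have hfpos : 0 < f z₀ := lt_of_le_of_ne f.nonneg (Ne.symm hfz₀)
      have hzb : z₀ ∈ ball x₀ (3 * R / 4) := by
        have : z₀ ∈ Function.support f := hfz₀
        rwa [f.support_eq] at this
      have hz₀R : z₀ ∈ ball x₀ R := hRr hz₀
      have hz₀K : z₀ ∈ K := ball_subset_closedBall hz₀R
      have hloc : IsLocalMax F z₀ := by
        filter_upwards [isOpen_ball.mem_nhds hzb] with y hy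
        exact hmax' y (ball_subset_closedBall hy)
      have heq' : ∀ᶠ y in 𝓝 z₀, a y (fderiv ℝ (fderiv ℝ v) y)
          + a y ((fderiv ℝ v y).smulRight (fderiv ℝ v y)) = l := by
        filter_upwards [isOpen_ball.mem_nhds hz₀R] with y hy
        exact (log_eq (hw y hy) (hpos y hy) (heq y hy)).2
      have h1 := at_max b (η := fun y => f y) hlam hL hL' hl.le hκ (abs_nonneg m₁')
        (abs_nonneg m₂') (ha.smooth z₀ (hsub hz₀K)) (hvs z₀ hz₀R) hfc.contDiffAt heq'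
        (hell z₀ hz₀K) ((hL₀ z₀ hz₀K).trans ((le_abs_self _).trans (by linarith)))
        ((hL₁ z₀ hz₀K).trans (le_abs_self _)) hκB hfpos f.le_one
        ((hm₁' z₀ hz₀K).trans (le_abs_self _)) ((hm₂' z₀ hz₀K).trans (le_abs_self _)) hloc
      have h2 : QQ b v z₀ ≤ E2 * ‖fderiv ℝ v z₀‖ ^ 2 := by
        unfold QQ
        rw [hE2, Finset.sum_mul]
        refine Finset.sum_le_sum fun k _ => ?_
        have h := (fderiv ℝ v z₀).le_opNorm (b k)
        rw [Real.norm_eq_abs] at h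
        have e : fderiv ℝ v z₀ (b k) * fderiv ℝ v z₀ (b k) = |fderiv ℝ v z₀ (b k)| ^ 2 := by
          rw [sq_abs]; ring
        rw [e]
        calc |fderiv ℝ v z₀ (b k)| ^ 2 ≤ (‖fderiv ℝ v z₀‖ * ‖b k‖) ^ 2 := by gcongr
          _ = _ := by ring
      have hnn : 0 ≤ f z₀ * ‖fderiv ℝ v z₀‖ := mul_nonneg hfpos.le (norm_nonneg _)
      calc F z₀ = (f z₀ * f z₀) * QQ b v z₀ := rfl
        _ ≤ (f z₀ * f z₀) * (E2 * ‖fderiv ℝ v z₀‖ ^ 2) :=
            mul_le_mul_of_nonneg_left h2 (mul_nonneg hfpos.le hfpos.le)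
        _ = E2 * (f z₀ * ‖fderiv ℝ v z₀‖) ^ 2 := by ring
        _ ≤ E2 * Γ ^ 2 := by
            refine mul_le_mul_of_nonneg_left ?_ hE20
            exact pow_le_pow_left₀ hnn h1 2
  have h3 : κ * ‖fderiv ℝ v z‖ ^ 2 ≤ E2 * Γ ^ 2 := hFz.trans ((hmax' z hz34).trans hbound)
  have h4 : ‖fderiv ℝ v z‖ ≤ (E2 / κ + 1) * Γ := by
    have h5 : ‖fderiv ℝ v z‖ ^ 2 ≤ ((E2 / κ + 1) * Γ) ^ 2 := by
      have h6 : ‖fderiv ℝ v z‖ ^ 2 ≤ E2 / κ * Γ ^ 2 := by
        rw [div_mul_eq_mul_div, le_div_iff₀ hκ]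
        linarith
      have h7 : 0 ≤ E2 / κ := by positivity
      have h8 : E2 / κ * Γ ^ 2 ≤ (E2 / κ + 1) ^ 2 * Γ ^ 2 := by
        refine mul_le_mul_of_nonneg_right ?_ (sq_nonneg _)
        nlinarith
      calc ‖fderiv ℝ v z‖ ^ 2 ≤ E2 / κ * Γ ^ 2 := h6
        _ ≤ (E2 / κ + 1) ^ 2 * Γ ^ 2 := h8
        _ = _ := by ring
    exact le_of_sq_le_sq h5 (by positivity)
  have h9 := (log_eq (hw z hzR) (hpos z hzR) (heq z hzR)).1
  rw [h9, norm_smul, Real.norm_of_nonneg (hpos z hzR).le, mul_comm]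
  exact mul_le_mul_of_nonneg_right h4 (hpos z hzR).le

end Vale.Agent.P299.H588
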